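import Vale.Agent.P372.TestDefs
import Vale.Agent.P372.Bdl.B1

open Matrix Topology
open scoped ComplexOrder

namespace Vale.Agent.Results.P372.KeyCriterion

open Vale.Agent.P372

theorem result :
    (∀ (A B E : Type) [Fintype A] [DecidableEq A] [Fintype B] [DecidableEq B] [Fintype E]
      [DecidableEq E] (Ψ : Matrix (A × B) E ℂ), (Ψ * Ψᴴ).trace = 1 →
      (0 < distillableKey Ψ ↔ ∃ n, KeyTest (tpow n (Ψ * Ψᴴ)) Set.univ)) ∧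
    (∀ (A B : Type) [Fintype A] [Fintype B] (ρ : Matrix (A × B) (A × B) ℂ), ρ.PosSemidef →
      KeyPos ρ → ∀ᶠ σ in 𝓝 ρ, σ.trace = 1 → KeyPos σ) ∧
    (∀ (A : Type) [Fintype A] (ρ : Matrix (A × Fin 3) (A × Fin 3) ℂ), ρ.trace = 1 →
      (∀ (α : A → ℂ) (β : Fin 3 → ℂ), (∀ (a : A → ℂ) (b : Fin 3 → ℂ),
        (∀ p, (ρ *ᵥ prodVec a b) p = 0) → sprod (prodVec a b) (prodVec α β) = 0) →
          ∀ p, prodVec α β p = 0) → KeyPos ρ) ∧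
    (∀ (c : Fin 3 → Fin 3 → ℝ) (s : ℝ), (∀ i j, 0 ≤ c i j) → ((s : ℂ) • cycState c).trace = 1 →
      ¬ IsSep ((s : ℂ) • cycState c) → KeyPos ((s : ℂ) • cycState c)) ∧
    (∀ (A B : Type) [Fintype A] [Fintype B] (ρ : Matrix (A × B) (A × B) ℂ) (a : Fin 3 → A → ℂ)
      (b : Fin 3 → B → ℂ), ρ.trace = 1 →
      (∀ i j, ρ *ᵥ prodVec (a i) (b i) = ρ *ᵥ prodVec (a j) (b j)) →
      ∏ i, (sprod (prodVec (a i) (b (i + 1))) (ρ *ᵥ prodVec (a i) (b (i + 1)))).re <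
        ∏ i, (sprod (prodVec (a i) (b i)) (ρ *ᵥ prodVec (a i) (b i))).re → KeyPos ρ) ∧
    (∀ a b : ℕ, 2 ≤ a → 2 ≤ b → 6 < a * b → ∃ ρ σ : Matrix (Fin a × Fin b) (Fin a × Fin b) ℂ,
      ρ.PosDef ∧ σ.PosDef ∧ (∀ i j k l, σ (i, j) (k, l) = ρ (i, l) (k, j)) ∧ ρ.trace = 1 ∧
        KeyPos ρ) ∧
    (∀ N : ℕ, ∃ (d : ℕ) (ρ : Matrix (Fin d × Fin d) (Fin d × Fin d) ℂ), ρ.PosSemidef ∧
      ρ.trace = 1 ∧ ¬ IsSep ρ ∧ (∀ n ≤ N, ¬ KeyTest (tpow n ρ) Set.univ) ∧ ∀ (n : ℕ) (m : Fin n)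
        (u : Fin n → Matrix (Fin N → Fin d) (Fin N → Fin d) ℂ), (∀ k, k ≠ m → u k * (u k)ᴴ = 1) →
          ¬ KeyTest (tpow n (tpow N ρ))
            {X | ∃ g : _ → _ → ℂ, X = fun p q => g p (q m) * ∏ k, u k (p k) (q k)}) :=
  ⟨keyPos_iff, keyPos_open, keyPos_kernel', keyPos_cyc, keyPos_cycle', keyPos_dims',
    Half.werner_tests2⟩

end Vale.Agent.Results.P372.KeyCriterion
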